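import Vale.Agent.P280.S.H847.Div

/-! P280 S: weak curves over `ℂ` and morphisms from the projective line. -/

open DirectSum Polynomial

namespace Vale.Agent.P280.S

section homogenize

/-- The value of a homogenized polynomial. -/
theorem aeval_homogenize (p : ℂ[X]) (n : ℕ) (a : Fin 2 → ℂ) :
    MvPolynomial.aeval a (p.homogenize n) =
      ∑ kl ∈ Finset.HasAntidiagonal.antidiagonal n, p.coeff kl.1 * (a 0 ^ kl.1 * a 1 ^ kl.2) := by
  rw [homogenize, map_sum]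
  refine Finset.sum_congr rfl fun kl _ => ?_
  rw [MvPolynomial.aeval_monomial, Finsupp.prod_fintype _ _ (fun i => pow_zero _),
    Fin.prod_univ_two]
  simp

theorem aeval_homogenize_infty (p : ℂ[X]) (n : ℕ) (a : Fin 2 → ℂ) (ha : a 1 = 0) :
    MvPolynomial.aeval a (p.homogenize n) = a 0 ^ n * p.coeff n := by
  rw [aeval_homogenize, Finset.sum_eq_single (n, 0)]
  · rw [pow_zero, mul_one, mul_comm]
  · rintro ⟨i, j⟩ hij hne
    rw [Finset.HasAntidiagonal.mem_antidiagonal] at hij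
    have hj : j ≠ 0 := fun h => hne (by subst h; exact Prod.ext hij rfl)
    simp only [ha, zero_pow hj, mul_zero]
  · intro h
    exact absurd (Finset.HasAntidiagonal.mem_antidiagonal.2 (add_zero n)) h

theorem aeval_homogenize_fin (p : ℂ[X]) {n : ℕ} (hn : p.natDegree ≤ n) (a : Fin 2 → ℂ)
    (ha : a 1 ≠ 0) :
    MvPolynomial.aeval a (p.homogenize n) = a 1 ^ n * p.eval (a 0 / a 1) := by
  rw [aeval_homogenize, Finset.Nat.sum_antidiagonal_eq_sum_range_succ_mk,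
    eval_eq_sum_range' (Nat.lt_succ_of_le hn), Finset.mul_sum]
  refine Finset.sum_congr rfl fun i hi => ?_
  have hi' : i ≤ n := Nat.lt_succ_iff.1 (Finset.mem_range.1 hi)
  have h1 : a 1 ^ n = a 1 ^ i * a 1 ^ (n - i) := by
    rw [← pow_add]
    congr 1
    omega
  rw [h1, div_pow]
  field_simp

/-- Dehomogenization of a homogeneous polynomial: the degree. -/
theorem natDegree_dehom {q : MvPolynomial (Fin 2) ℂ} {n : ℕ} (hq : q.IsHomogeneous n) :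
    (MvPolynomial.aeval ![(X : ℂ[X]), 1] q).natDegree ≤ n := by
  rw [q.as_sum, map_sum]
  refine natDegree_sum_le_of_forall_le _ _ fun m hm => ?_
  rw [MvPolynomial.aeval_monomial, Finsupp.prod_fintype _ _ (fun i => pow_zero _),
    Fin.prod_univ_two]
  have h1 : m.weight 1 = n := hq (by simpa using hm)
  have h2 : m 0 + m 1 = n := by
    rw [← h1]
    simp [Finsupp.weight_apply, Finsupp.sum_fintype, Fin.sum_univ_two]
  simp only [Matrix.cons_val_zero, Matrix.cons_val_one, one_pow, mul_one]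
  rw [← C_eq_algebraMap]
  exact (natDegree_C_mul_X_pow_le _ _).trans (by omega)

end homogenize

variable {R : Type} [CommRing R] [Algebra ℂ R] {𝒜 : ℕ → Submodule ℂ R}

theorem SamePoint.refl (p : R →ₐ[ℂ] ℂ) : SamePoint 𝒜 p p :=
  ⟨1, one_ne_zero, fun d h _ => by rw [one_pow, one_mul]⟩

theorem SamePoint.symm {p q : R →ₐ[ℂ] ℂ} (h : SamePoint 𝒜 p q) : SamePoint 𝒜 q p := by
  obtain ⟨c, hc, h1⟩ := h
  refine ⟨c⁻¹, inv_ne_zero hc, fun d h hh => ?_⟩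
  rw [h1 d h hh, inv_pow, inv_mul_cancel_left₀ (pow_ne_zero _ hc)]

theorem SamePoint.trans {p q r : R →ₐ[ℂ] ℂ} (h : SamePoint 𝒜 p q) (h' : SamePoint 𝒜 q r) :
    SamePoint 𝒜 p r := by
  obtain ⟨c, hc, h1⟩ := h
  obtain ⟨c', hc', h2⟩ := h'
  refine ⟨c' * c, mul_ne_zero hc' hc, fun d h hh => ?_⟩
  rw [h2 d h hh, h1 d h hh, mul_pow, mul_assoc]

theorem IsJoined.congr {n : ℕ} {p q r : R →ₐ[ℂ] ℂ} (h : IsJoined 𝒜 n p q)
    (h' : SamePoint 𝒜 q r) : IsJoined 𝒜 n p r := by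
  cases h with
  | refl _ _ h => exact IsJoined.refl _ _ (h.trans h')
  | step n e _ _ φ h1 h2 h3 => exact IsJoined.step n e _ _ φ h1 h2 (h3.trans h')

variable [GradedAlgebra 𝒜]

/-- A point is the vertex if and only if all elements of degree one vanish. -/
theorem nv_iff (hgen : Algebra.adjoin ℂ {h : R | h ∈ 𝒜 1} = ⊤) (p : R →ₐ[ℂ] ℂ) :
    ¬ IsVertex 𝒜 p ↔ NV 𝒜 p := by
  constructor
  · intro h
    by_contra hn
    apply h
    intro d hd r hr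
    have h1 : ∀ s ∈ 𝒜 1, p s = 0 := fun s hs => by
      by_contra h2
      exact hn ⟨s, hs, h2⟩
    have h2 : twist 𝒜 (0 : ℂ) p = p := by
      refine AlgHom.ext_of_adjoin_eq_top hgen fun s hs => ?_
      rw [twist_apply 𝒜 hs, h1 s hs, mul_zero]
    rw [← h2, twist_apply 𝒜 hr, zero_pow hd.ne', zero_mul]
  · rintro ⟨h, hh, hne⟩ hv
    exact hne (hv 1 one_pos h hh)

/-- The homogenization of a weak curve. -/
noncomputable def hgz {e : ℕ} {ψ : R →ₐ[ℂ] ℂ[X]} (hd : Deg 𝒜 e ψ) :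
    R →ₐ[ℂ] MvPolynomial (Fin 2) ℂ :=
  mkHom 𝒜 (fun d => (homogenizeLM (R := ℂ) (d * e)).comp ψ.toLinearMap)
    (by simp) (fun i j a ha b hb => by
      change (ψ (a * b)).homogenize ((i + j) * e) =
        (ψ a).homogenize (i * e) * (ψ b).homogenize (j * e)
      rw [map_mul, add_mul, homogenize_mul _ _ (hd i a ha) (hd j b hb)])

theorem hgz_apply {e : ℕ} {ψ : R →ₐ[ℂ] ℂ[X]} (hd : Deg 𝒜 e ψ) {d : ℕ} {h : R} (hh : h ∈ 𝒜 d) :
    hgz hd h = (ψ h).homogenize (d * e) := by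
  rw [hgz, mkHom_apply 𝒜 hh]
  rfl

theorem dehom_hgz {e : ℕ} {ψ : R →ₐ[ℂ] ℂ[X]} (hd : Deg 𝒜 e ψ) :
    (MvPolynomial.aeval ![(X : ℂ[X]), 1]).comp (hgz hd) = ψ := by
  refine hom_ext_hom 𝒜 fun d h hh => ?_
  rw [AlgHom.comp_apply, hgz_apply hd hh, aeval_homogenize_X_one _ (hd d h hh)]

theorem pt_hgz_one {e : ℕ} {ψ : R →ₐ[ℂ] ℂ[X]} (hd : Deg 𝒜 e ψ) (c : ℂ) {d : ℕ} {h : R}
    (hh : h ∈ 𝒜 d) : pt (hgz hd) ![c, 1] h = (ψ h).eval c := by
  rw [pt, AlgHom.comp_apply, hgz_apply hd hh,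
    aeval_homogenize_fin _ (hd d h hh) _ (by simp)]
  simp

theorem pt_hgz_infty {e : ℕ} {ψ : R →ₐ[ℂ] ℂ[X]} (hd : Deg 𝒜 e ψ) {d : ℕ} {h : R}
    (hh : h ∈ 𝒜 d) : pt (hgz hd) ![1, 0] h = (ψ h).coeff (d * e) := by
  rw [pt, AlgHom.comp_apply, hgz_apply hd hh, aeval_homogenize_infty _ _ _ (by simp)]
  simp

/-- Weak curves without base points are curves. -/
theorem isCurve_hgz (hgen : Algebra.adjoin ℂ {h : R | h ∈ 𝒜 1} = ⊤) {e : ℕ} {ψ : R →ₐ[ℂ] ℂ[X]}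
    (hd : Deg 𝒜 e ψ) (hb : ∀ c : ℂ, ∃ h ∈ 𝒜 1, (ψ h).eval c ≠ 0)
    (hi : ∃ h ∈ 𝒜 1, (ψ h).coeff e ≠ 0) : IsCurve 𝒜 e (hgz hd) := by
  refine ⟨fun d h hh => ?_, fun a ha => ?_⟩
  · rw [hgz_apply hd hh]
    exact isHomogeneous_homogenize _
  · rw [nv_iff hgen]
    by_cases h1 : a 1 = 0
    · have h0 : a 0 ≠ 0 := by
        intro h0
        apply ha
        ext i
        fin_cases i
        · exact h0
        · exact h1
      obtain ⟨h, hh, hne⟩ := hi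
      refine ⟨h, hh, ?_⟩
      rw [pt, AlgHom.comp_apply, hgz_apply hd hh, aeval_homogenize_infty _ _ _ h1, one_mul]
      exact mul_ne_zero (pow_ne_zero _ h0) hne
    · obtain ⟨h, hh, hne⟩ := hb (a 0 / a 1)
      refine ⟨h, hh, ?_⟩
      rw [pt, AlgHom.comp_apply, hgz_apply hd hh, aeval_homogenize_fin _ (hd 1 h hh) _ h1]
      exact mul_ne_zero (pow_ne_zero _ h1) hne

/-- A weak curve contains a base point free curve of smaller or equal degree with the same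
ends. -/
theorem exists_curve_of_weak (hgen : Algebra.adjoin ℂ {h : R | h ∈ 𝒜 1} = ⊤) {q q' : R →ₐ[ℂ] ℂ}
    (hq : NV 𝒜 q) (hq' : NV 𝒜 q') : ∀ (e : ℕ) (ψ : R →ₐ[ℂ] ℂ[X]), Deg 𝒜 e ψ → Starts 𝒜 ψ q →
      Ends 𝒜 e ψ q' → ∃ e' ≤ e, ∃ φ : R →ₐ[ℂ] MvPolynomial (Fin 2) ℂ, IsCurve 𝒜 e' φ ∧
        SamePoint 𝒜 q (pt φ ![0, 1]) ∧ SamePoint 𝒜 (pt φ ![1, 0]) q' := by
  intro e
  induction e using Nat.strong_induction_on with
  | _ e ih =>
    intro ψ hd hs he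
    by_cases hb : ∀ c : ℂ, ∃ h ∈ 𝒜 1, (ψ h).eval c ≠ 0
    · refine ⟨e, le_rfl, hgz hd, isCurve_hgz hgen hd hb ?_, ?_, ?_⟩
      · obtain ⟨c, hc, h1⟩ := he
        obtain ⟨h, hh, hne⟩ := hq'
        refine ⟨h, hh, ?_⟩
        have h2 := h1 1 h hh
        rw [one_mul] at h2
        rw [h2]
        exact mul_ne_zero (pow_ne_zero _ hc) hne
      · obtain ⟨c, hc, h1⟩ := hs
        refine ⟨c, hc, fun d h hh => ?_⟩
        rw [pt_hgz_one hd 0 hh, ← coeff_zero_eq_eval_zero]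
        exact h1 d h hh
      · obtain ⟨c, hc, h1⟩ := he
        refine SamePoint.symm ⟨c, hc, fun d h hh => ?_⟩
        rw [pt_hgz_infty hd hh]
        exact h1 d h hh
    · push Not at hb
      obtain ⟨c, hc⟩ := hb
      obtain ⟨e', ψ₁, rfl, h1, h2, h3⟩ := exists_divide_root 𝒜 hgen hq hq' hd hs he hc
      obtain ⟨e'', h4, φ, h5⟩ := ih e' (Nat.lt_succ_self _) ψ₁ h1 h2 h3
      exact ⟨e'', by omega, φ, h5⟩

omit [GradedAlgebra 𝒜] in
theorem Ch.nv_end {k : Type} [Field k] [Algebra ℂ k] {n : ℕ} {p q : R →ₐ[ℂ] k}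
    (h : Ch 𝒜 k n p q) : NV 𝒜 q := by
  cases h with
  | refl _ h => exact h
  | step _ _ _ _ _ _ _ h _ _ _ => exact h

/-- A weak chain over `ℂ` contains a chain of curves of smaller or equal total degree. -/
theorem isJoined_of_ch (hgen : Algebra.adjoin ℂ {h : R | h ∈ 𝒜 1} = ⊤) {n : ℕ}
    {p q : R →ₐ[ℂ] ℂ} (h : Ch 𝒜 ℂ n p q) : ∃ n' ≤ n, IsJoined 𝒜 n' p q := by
  induction h with
  | refl q _ => exact ⟨0, le_rfl, IsJoined.refl _ _ (SamePoint.refl q)⟩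
  | step n e p q q' ψ h1 h2 h3 h4 h5 ih =>
    obtain ⟨n', hn', ih⟩ := ih
    obtain ⟨e', he', φ, h6, h7, h8⟩ := exists_curve_of_weak hgen h1.nv_end h2 e ψ h3 h4 h5
    exact ⟨n' + e', by omega, IsJoined.step n' e' p q' φ h6 (ih.congr h7) h8⟩

/-- **Row F**: the hypotheses in weak form. -/
theorem good_of_isGood (hgen : Algebra.adjoin ℂ {h : R | h ∈ 𝒜 1} = ⊤) {x : R →ₐ[ℂ] ℂ}
    {J : Set R} {e : ℕ} (hG : IsGood 𝒜 x J e) : Good 𝒜 x J e := by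
  have hmin : ∀ (n : ℕ) (y : R →ₐ[ℂ] ℂ), NV 𝒜 y → (∀ h ∈ J, y h = 0) → Ch 𝒜 ℂ n x y → e ≤ n := by
    intro n y hy hJ hc
    obtain ⟨n', hn', h1⟩ := isJoined_of_ch hgen hc
    exact (hG.minimal n' y ((nv_iff hgen y).2 hy) hJ h1).trans hn'
  have hx : NV 𝒜 x := (nv_iff hgen x).1 hG.notVertex
  have hxx : (Algebra.ofId ℂ ℂ).comp x = x := AlgHom.ext fun r => rfl
  refine ⟨hx, hG.homogeneous, hmin, ?_⟩
  obtain ⟨d₀, hd₀, g, hg, hg0, hu⟩ := hG.unique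
  refine ⟨d₀, hd₀, g, hg, hg0, fun z hz => ?_⟩
  obtain ⟨φ, ⟨hφ, hφx, hφJ, hφz⟩, hφu⟩ := hu z hz
  have hcoef : ∀ d, ∀ h ∈ 𝒜 d, φ h =
      ((MvPolynomial.aeval ![(X : ℂ[X]), 1]) (φ h)).homogenize (d * e) := fun d h hh =>
    (homogenize_eq_of_isHomogeneous (hφ.1 d h hh) rfl).symm
  refine ⟨(MvPolynomial.aeval ![(X : ℂ[X]), 1]).comp φ, ⟨?_, ?_, ?_, ?_⟩, ?_⟩
  · intro d h hh
    exact natDegree_dehom (hφ.1 d h hh)
  · rw [hxx]
    obtain ⟨c, hc, h1⟩ := hφx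
    refine ⟨c, hc, fun d h hh => ?_⟩
    rw [← h1 d h hh, pt, AlgHom.comp_apply, AlgHom.comp_apply]
    conv_rhs => rw [hcoef d h hh]
    rw [aeval_homogenize_fin _ (natDegree_dehom (hφ.1 d h hh)) _ (by simp),
      coeff_zero_eq_eval_zero]
    simp
  · refine ⟨pt φ ![1, 0], (nv_iff hgen _).1 (hφ.2 _ ?_), hφJ, 1, one_ne_zero, fun d h hh => ?_⟩
    · intro h
      have := congrFun h 0
      simp at this
    · rw [one_pow, one_mul, pt, AlgHom.comp_apply, AlgHom.comp_apply]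
      conv_rhs => rw [hcoef d h hh]
      rw [aeval_homogenize_infty _ _ _ (by simp)]
      simp
  · intro h
    rw [← hφz]
    have key : (evalRingHom (1 : ℂ)).comp
        (((MvPolynomial.aeval ![(X : ℂ[X]), 1]).comp φ : R →ₐ[ℂ] ℂ[X]) : R →+* ℂ[X]) =
        ((pt φ ![1, 1] : R →ₐ[ℂ] ℂ) : R →+* ℂ) := by
      have h1 : (aeval (1 : ℂ)).comp ((MvPolynomial.aeval ![(X : ℂ[X]), 1]).comp φ) =
          pt φ ![1, 1] := by
        refine hom_ext_hom 𝒜 fun d h hh => ?_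
        rw [pt, AlgHom.comp_apply, AlgHom.comp_apply, AlgHom.comp_apply]
        conv_rhs => rw [hcoef d h hh]
        rw [aeval_homogenize_fin _ (natDegree_dehom (hφ.1 d h hh)) _ (by simp)]
        simp [coe_aeval_eq_eval]
      ext r
      have h2 := AlgHom.congr_fun h1 r
      rw [← RingHom.coe_coe (f := pt φ ![1, 1])] at h2
      exact h2
    exact RingHom.congr_fun key h
  · intro ψ hψ
    obtain ⟨y, hy, hyJ, hye⟩ := hψ.ends
    have hs := hψ.starts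
    rw [hxx] at hs
    have hb : ∀ c : ℂ, ∃ h ∈ 𝒜 1, (ψ h).eval c ≠ 0 := by
      intro c
      by_contra hcon
      push Not at hcon
      obtain ⟨e', ψ₁, he', h1, h2, h3⟩ := exists_divide_root 𝒜 hgen hx hy hψ.deg hs hye hcon
      have h4 := hmin (0 + e') y hy hyJ (Ch.step 0 e' x x y ψ₁ (Ch.refl x hx) hy h1 h2 h3)
      omega
    have hi : ∃ h ∈ 𝒜 1, (ψ h).coeff e ≠ 0 := by
      obtain ⟨c, hc, h1⟩ := hye
      obtain ⟨h, hh, hne⟩ := hy
      refine ⟨h, hh, ?_⟩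
      have h2 := h1 1 h hh
      rw [one_mul] at h2
      rw [h2]
      exact mul_ne_zero (pow_ne_zero _ hc) hne
    have h1 := hφu (hgz hψ.deg) ⟨isCurve_hgz hgen hψ.deg hb hi, ?_, ?_, ?_⟩
    · rw [← h1, dehom_hgz]
    · obtain ⟨c, hc, h1⟩ := hs
      refine ⟨c, hc, fun d h hh => ?_⟩
      rw [pt_hgz_one hψ.deg 0 hh, ← coeff_zero_eq_eval_zero]
      exact h1 d h hh
    · intro h hh
      obtain ⟨d, hd⟩ := hG.homogeneous h hh
      obtain ⟨c, hc, h1⟩ := hye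
      rw [pt_hgz_infty hψ.deg hd, h1 d h hd, hyJ h hh, mul_zero]
    · refine hom_ext_hom 𝒜 fun d h hh => ?_
      rw [pt_hgz_one hψ.deg 1 hh]
      exact hψ.one h

end Vale.Agent.P280.S
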