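import Vale.Agent.P280.S.H847.Hom

/-! P280 S: division of a weak curve by a common factor. -/

open DirectSum Polynomial

namespace Vale.Agent.P280.S

variable {R : Type} [CommRing R] [Algebra ℂ R] (𝒜 : ℕ → Submodule ℂ R) [GradedAlgebra 𝒜]

omit [GradedAlgebra 𝒜] in
/-- A homomorphism to the fraction field which maps generators to `B` factors through `B`. -/
theorem exists_factor {B L : Type} [CommRing B] [CommRing L] [Algebra ℂ B] [Algebra ℂ L]
    (hgen : Algebra.adjoin ℂ {h : R | h ∈ 𝒜 1} = ⊤) (i : B →ₐ[ℂ] L)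
    (hi : Function.Injective i) (f : R →ₐ[ℂ] L) (hf : ∀ h ∈ 𝒜 1, ∃ b, i b = f h) :
    ∃ g : R →ₐ[ℂ] B, ∀ r, i (g r) = f r := by
  have key : ∀ r, f r ∈ i.range := by
    intro r
    have hr : r ∈ Algebra.adjoin ℂ {h : R | h ∈ 𝒜 1} := by rw [hgen]; trivial
    induction hr using Algebra.adjoin_induction with
    | mem x hx =>
      obtain ⟨b, hb⟩ := hf x hx
      exact ⟨b, hb⟩
    | algebraMap c => rw [f.commutes]; exact i.range.algebraMap_mem c
    | add x y _ _ hx hy => rw [map_add]; exact add_mem hx hy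
    | mul x y _ _ hx hy => rw [map_mul]; exact mul_mem hx hy
  refine ⟨((AlgEquiv.ofInjective i hi).symm : i.range →ₐ[ℂ] B).comp (f.codRestrict i.range key),
    fun r => ?_⟩
  have h1 := AlgEquiv.apply_symm_apply (AlgEquiv.ofInjective i hi) (f.codRestrict i.range key r)
  have h2 := congrArg Subtype.val h1
  rw [AlgEquiv.ofInjective_apply] at h2
  exact h2

/-- Division by a common factor. -/
theorem exists_divide {k : Type} [Field k] [Algebra ℂ k]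
    (hgen : Algebra.adjoin ℂ {h : R | h ∈ 𝒜 1} = ⊤) (ψ : R →ₐ[ℂ] k[X]) {g : k[X]} (hg : g ≠ 0)
    (hd : ∀ h ∈ 𝒜 1, g ∣ ψ h) :
    ∃ ψ₁ : R →ₐ[ℂ] k[X], ∀ d, ∀ h ∈ 𝒜 d, ψ h = g ^ d * ψ₁ h := by
  let i : k[X] →ₐ[ℂ] FractionRing k[X] := IsScalarTower.toAlgHom ℂ k[X] (FractionRing k[X])
  have hi : Function.Injective i := IsFractionRing.injective k[X] (FractionRing k[X])
  have hgi : i g ≠ 0 := fun h => hg (hi (by rw [h, map_zero]))
  obtain ⟨ψ₁, h1⟩ := exists_factor 𝒜 hgen i hi (twist 𝒜 (i g)⁻¹ (i.comp ψ)) (by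
    intro h hh
    obtain ⟨b, hb⟩ := hd h hh
    refine ⟨b, ?_⟩
    rw [twist_apply 𝒜 hh, pow_one, AlgHom.comp_apply, hb, map_mul, inv_mul_cancel_left₀ hgi])
  refine ⟨ψ₁, fun d h hh => hi ?_⟩
  rw [map_mul, map_pow, h1, twist_apply 𝒜 hh, AlgHom.comp_apply, inv_pow,
    mul_inv_cancel_left₀ (pow_ne_zero _ hgi)]

/-- Division by `X - c` where `c` is an interior base point. -/
theorem exists_divide_root {k : Type} [Field k] [Algebra ℂ k]
    (hgen : Algebra.adjoin ℂ {h : R | h ∈ 𝒜 1} = ⊤) {e : ℕ} {ψ : R →ₐ[ℂ] k[X]}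
    {q q' : R →ₐ[ℂ] k} (hq : NV 𝒜 q) (hq' : NV 𝒜 q') (hdeg : Deg 𝒜 e ψ) (hs : Starts 𝒜 ψ q)
    (he : Ends 𝒜 e ψ q') {c : k} (hc : ∀ h ∈ 𝒜 1, (ψ h).eval c = 0) :
    ∃ (e' : ℕ) (ψ₁ : R →ₐ[ℂ] k[X]), e = e' + 1 ∧ Deg 𝒜 e' ψ₁ ∧ Starts 𝒜 ψ₁ q ∧ Ends 𝒜 e' ψ₁ q' := by
  obtain ⟨ψ₁, h1⟩ := exists_divide 𝒜 hgen ψ (X_sub_C_ne_zero c)
    (fun h hh => dvd_iff_isRoot.2 (hc h hh))
  obtain ⟨a, ha, hsa⟩ := hs
  obtain ⟨b, hb, heb⟩ := he
  -- `c` is not zero
  have hc0 : c ≠ 0 := by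
    rintro rfl
    obtain ⟨h, hh, hne⟩ := hq
    have h2 := hsa 1 h hh
    rw [coeff_zero_eq_eval_zero, hc h hh, pow_one] at h2
    exact mul_ne_zero ha hne h2.symm
  -- `e` is positive
  have hepos : 0 < e := by
    rcases Nat.eq_zero_or_pos e with h0 | h0
    · subst h0
      exfalso
      obtain ⟨h, hh, hne⟩ := hq'
      have h2 := heb 1 h hh
      have h3 := hdeg 1 h hh
      rw [mul_zero] at h2 h3
      have h4 : ψ h = C ((ψ h).coeff 0) := eq_C_of_natDegree_le_zero h3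
      have h5 := hc h hh
      rw [h4, eval_C, h2, pow_one] at h5
      exact mul_ne_zero hb hne h5
    · exact h0
  obtain ⟨e', rfl⟩ : ∃ e', e = e' + 1 := ⟨e - 1, by omega⟩
  have hmon : ∀ d : ℕ, ((X - C c : k[X]) ^ d).Monic := fun d => (monic_X_sub_C c).pow d
  have hnd : ∀ d : ℕ, ((X - C c : k[X]) ^ d).natDegree = d := fun d => by
    rw [natDegree_pow, natDegree_X_sub_C, mul_one]
  have hdeg' : Deg 𝒜 e' ψ₁ := by
    intro d h hh
    by_cases h0 : ψ₁ h = 0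
    · rw [h0, natDegree_zero]; exact Nat.zero_le _
    · have h2 := hdeg d h hh
      rw [h1 d h hh, (hmon d).natDegree_mul' h0, hnd] at h2
      have h3 : d * (e' + 1) = d + d * e' := by ring
      omega
  refine ⟨e', ψ₁, rfl, hdeg', ⟨(-c)⁻¹ * a, mul_ne_zero (inv_ne_zero (neg_ne_zero.2 hc0)) ha, ?_⟩,
    ⟨b, hb, ?_⟩⟩
  · intro d h hh
    have h2 := hsa d h hh
    rw [h1 d h hh, mul_coeff_zero, coeff_zero_eq_eval_zero ((X - C c) ^ d), eval_pow, eval_sub,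
      eval_X, eval_C, zero_sub] at h2
    have h3 : (-c) ^ d ≠ 0 := pow_ne_zero _ (neg_ne_zero.2 hc0)
    rw [mul_pow, inv_pow, mul_assoc, ← h2, inv_mul_cancel_left₀ h3]
  · intro d h hh
    have h2 := heb d h hh
    rw [h1 d h hh] at h2
    have h3 : d * (e' + 1) = d + d * e' := by ring
    have h4 : ((X - C c : k[X]) ^ d * ψ₁ h).coeff (d + d * e') =
        ((X - C c : k[X]) ^ d).coeff d * (ψ₁ h).coeff (d * e') :=
      coeff_mul_add_eq_of_natDegree_le (hnd d).le (hdeg' d h hh)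
    rw [h3, h4] at h2
    have h5 : ((X - C c : k[X]) ^ d).coeff d = 1 := by
      have := (hmon d).coeff_natDegree
      rwa [hnd] at this
    rwa [h5, one_mul] at h2

end Vale.Agent.P280.S
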