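import Vale.Agent.P280.S.Defs

/-! P280 S: graded algebra homomorphisms from components. -/

open DirectSum Polynomial

namespace Vale.Agent.P280.S

variable {R : Type} [CommRing R] [Algebra ℂ R] (𝒜 : ℕ → Submodule ℂ R) [GradedAlgebra 𝒜]

/-- The algebra homomorphism which is `f d` on the component of degree `d`. -/
noncomputable def mkHom {B : Type*} [CommRing B] [Algebra ℂ B] (f : ℕ → R →ₗ[ℂ] B)
    (h1 : f 0 1 = 1)
    (hm : ∀ i j : ℕ, ∀ a ∈ 𝒜 i, ∀ b ∈ 𝒜 j, f (i + j) (a * b) = f i a * f j b) : R →ₐ[ℂ] B :=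
  (DirectSum.toAlgebra ℂ (fun i => 𝒜 i) (fun i => (f i).comp (𝒜 i).subtype) h1
    (fun {i j} ai aj => hm i j ai ai.2 aj aj.2)).comp (decomposeAlgEquiv 𝒜).toAlgHom

theorem mkHom_apply {B : Type*} [CommRing B] [Algebra ℂ B] {f : ℕ → R →ₗ[ℂ] B}
    {h1 : f 0 1 = 1}
    {hm : ∀ i j : ℕ, ∀ a ∈ 𝒜 i, ∀ b ∈ 𝒜 j, f (i + j) (a * b) = f i a * f j b}
    {d : ℕ} {h : R} (hh : h ∈ 𝒜 d) : mkHom 𝒜 f h1 hm h = f d h := by
  change DirectSum.toAlgebra ℂ (fun i => 𝒜 i) (fun i => (f i).comp (𝒜 i).subtype) h1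
    (fun {i j} ai aj => hm i j ai ai.2 aj aj.2) (decompose 𝒜 h) = _
  lift h to 𝒜 d using hh
  rw [decompose_coe]
  exact DirectSum.toAddMonoid_of (fun i => ((f i).comp (𝒜 i).subtype).toAddMonoidHom) d h

/-- Homomorphisms which agree on homogeneous elements are equal. -/
theorem hom_ext_hom {B : Type*} [CommRing B] [Algebra ℂ B] {f g : R →ₐ[ℂ] B}
    (h : ∀ d, ∀ a ∈ 𝒜 d, f a = g a) : f = g := by
  refine AlgHom.ext fun r => ?_
  induction r using DirectSum.Decomposition.inductionOn 𝒜 with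
  | zero => rw [map_zero, map_zero]
  | @homogeneous j x => exact h j x x.2
  | add x y hx hy => rw [map_add, map_add, hx, hy]

/-- `h ↦ u ^ d * f h` for `h` of degree `d`. -/
noncomputable def twist {B : Type*} [CommRing B] [Algebra ℂ B] (u : B) (f : R →ₐ[ℂ] B) :
    R →ₐ[ℂ] B :=
  mkHom 𝒜 (fun d => (LinearMap.mulLeft ℂ (u ^ d)).comp f.toLinearMap) (by simp)
    (fun i j a _ b _ => by
      simp only [LinearMap.comp_apply, LinearMap.mulLeft_apply, AlgHom.toLinearMap_apply, map_mul,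
        pow_add]
      ring)

theorem twist_apply {B : Type*} [CommRing B] [Algebra ℂ B] {u : B} {f : R →ₐ[ℂ] B} {d : ℕ}
    {h : R} (hh : h ∈ 𝒜 d) : twist 𝒜 u f h = u ^ d * f h := by
  rw [twist, mkHom_apply 𝒜 hh]
  rfl

end Vale.Agent.P280.S
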