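import Vale.Agent.P280.S.H847.Conv
import Vale.Agent.P280.S.H145.Generic
import Vale.Agent.P280.S.H348.Fin
import Vale.Agent.P280.S.H730.RowE
import Vale.Agent.P280.S.H730.Glue

/-! P280 S: the main theorem. -/

open DirectSum Polynomial

namespace Vale.Agent.P280.S

variable {R : Type} [CommRing R] [Algebra ℂ R] {𝒜 : ℕ → Submodule ℂ R} [GradedAlgebra 𝒜]

/-- **Theorem S.** -/
theorem mainS (hX : IsProjectiveManifold 𝒜) (hN : NefOnRationalCurves 𝒜) {x : R →ₐ[ℂ] ℂ}
    {J : Set R} {e : ℕ} (hG : IsGood 𝒜 x J e) : IsHomogeneousManifold 𝒜 ∧ IsTransitive 𝒜 := by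
  haveI := hX.domain
  haveI := hX.finiteType
  have hgood := good_of_isGood hX.gen hG
  obtain ⟨φ₀, hφ₀⟩ := exists_sol_frac hX.finiteType hX.gen hgood
  obtain ⟨φ, hφ⟩ := H348.exists_univ hX hgood hφ₀
  have hc := hφ.coaction hgood
  letI := H265.gradedAlgebra_bi hc
  obtain ⟨L, hL1, hL0, hxL, -, hL⟩ := H265.exists_lam hφ hgood.nv hc
  exact homogeneous_of_grading (refines_bi hc) hX hN hgood.nv hgood.min
    (H265.fixed_x hL0 hL) (fun χ hχ => by
      have := H265.pos_x hL0 hxL hL hχ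
      omega)
    (fun q μ hq hfix => H348.chain_of_fixed hX hgood hφ hc hq hfix)

end Vale.Agent.P280.S
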